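import Vale.Agent.P068.MathlibUsed

/-!
# P068: definitions

The intersection property of a pair of matroids on a common ground set, packing/covering
partitions of a family of matroids, and the set-theoretic hypothesis `ReapingEqContinuum`.
-/

namespace Vale.Agent.P068

open Set Matroid
open scoped Cardinal

/-- `(M, N)` (two matroids with `M.E = N.E`) satisfies intersection: some set `JM ∪ JN`
(with `JM`, `JN` disjoint) is independent in both, and the `M`-closure of `JM` together with
the `N`-closure of `JN` covers the ground set. -/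
def SatisfiesIntersection {α : Type*} (M N : Matroid α) : Prop :=
  ∃ JM JN : Set α, Disjoint JM JN ∧ M.Indep (JM ∪ JN) ∧ N.Indep (JM ∪ JN) ∧
    M.closure JM ∪ N.closure JN = M.E

/-- The family `M i` of matroids on the common ground set `E` has a packing/covering partition
`E = P ∪ C`. Here `(M i)✶ ↾ C)✶` is the contraction of `M i` onto `C`. -/
def HasPackingCovering {α ι : Type*} (E : Set α) (M : ι → Matroid α) : Prop :=
  ∃ (P C : Set α) (S I : ι → Set α), P ∪ C = E ∧ Disjoint P C ∧
    (∀ i, S i ⊆ P) ∧ (∀ i, I i ⊆ C) ∧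
    (∀ i j, i ≠ j → Disjoint (S i) (S j)) ∧
    (∀ i, ((M i) ↾ P).closure (S i) = P) ∧
    (∀ i, (((M i)✶ ↾ C)✶).Indep (I i)) ∧ (⋃ i, I i) = C

/-- The reaping number equals the continuum: every family of fewer than `2 ^ ℵ₀` infinite sets
of natural numbers is split by a single set `G`. This follows from the continuum hypothesis
and from Martin's axiom. -/
def ReapingEqContinuum : Prop :=
  ∀ 𝓢 : Set (Set ℕ), #𝓢 < 𝔠 → (∀ S ∈ 𝓢, S.Infinite) →
    ∃ G : Set ℕ, ∀ S ∈ 𝓢, (S ∩ G).Infinite ∧ (S \ G).Infinite

end Vale.Agent.P068
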